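import Mathlib

/-!
Systems of equations over an arbitrary group whose coefficient-free system has a solution in a
left-ordered group with triangular extremal pivots are solvable, for P174.
-/

namespace Vale.Agent.P174

open Filter

universe u

/-- A letter: a coefficient from `G`, or a variable with a sign (`true` for exponent `1`). -/
abbrev Letter (G : Type*) (κ : Type*) := G ⊕ (κ × Bool)

variable {G H Q : Type u} [Group G] [Group H] [Group Q] {κ : Type*} {n : ℕ}

/-- The value of a signed variable. -/
def sval (h : κ → H) (l : κ × Bool) : H := if l.2 then h l.1 else (h l.1)⁻¹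

/-- The value of a letter under `ι` on coefficients and `h` on variables. -/
def lval (ι : G →* H) (h : κ → H) : Letter G κ → H
  | .inl g => ι g
  | .inr l => sval h l

/-- The value of a word. -/
def wval (ι : G →* H) (h : κ → H) (w : List (Letter G κ)) : H := (w.map (lval ι h)).prod

/-- The value in `Q` of one letter after deleting coefficients. -/
def shift (q : Fin n → Q) : Letter G (Fin n) → Q
  | .inl _ => 1
  | .inr l => sval q l

/-- The value in `Q` of a word after deleting coefficients. -/
def wshift (q : Fin n → Q) (w : List (Letter G (Fin n))) : Q := (w.map (shift q)).prod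

/-- The position of a signed variable read at prefix value `P`. -/
def pos (q : Fin n → Q) (P : Q) (l : Fin n × Bool) : Q := if l.2 then P else P * (q l.1)⁻¹

/-- Replace each variable of a word read from prefix value `P` by the pair variable, position. -/
def keys (q : Fin n → Q) : Q → List (Letter G (Fin n)) → List (Letter G (Fin n × Q))
  | _, [] => []
  | P, .inl g :: w => .inl g :: keys q P w
  | P, .inr l :: w => .inr ((l.1, pos q P l), l.2) :: keys q (P * sval q l) w

theorem keys_append (q : Fin n → Q) (v w : List (Letter G (Fin n))) : ∀ P : Q,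
    keys q P (v ++ w) = keys q P v ++ keys q (P * wshift q v) w := by
  induction v with
  | nil => intro P; simp [keys, wshift]
  | cons a v ih =>
    intro P
    cases a with
    | inl g => simp [keys, wshift, shift, ih]
    | inr l => simp [keys, wshift, shift, ih, mul_assoc]

theorem keys_mul (q : Fin n → Q) (c : Q) (w : List (Letter G (Fin n))) : ∀ P : Q,
    ∀ k s, (Sum.inr (k, s) : Letter G (Fin n × Q)) ∈ keys q (c * P) w →
      ∃ R, k.2 = c * R ∧ (Sum.inr ((k.1, R), s) : Letter G (Fin n × Q)) ∈ keys q P w := by
  induction w with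
  | nil => intro P k s h; simp [keys] at h
  | cons a w ih =>
    intro P k s h
    cases a with
    | inl g =>
      simp only [keys, List.mem_cons, reduceCtorEq, false_or] at h ⊢
      exact ih P k s h
    | inr l =>
      simp only [keys, List.mem_cons, Sum.inr.injEq, Prod.mk.injEq] at h ⊢
      rcases h with ⟨rfl, rfl⟩ | h
      · refine ⟨pos q P l, ?_, Or.inl ⟨⟨rfl, rfl⟩, rfl⟩⟩
        unfold pos; split <;> simp [mul_assoc]
      · rw [mul_assoc] at h
        obtain ⟨R, hR, hm⟩ := ih _ k s h
        exact ⟨R, hR, Or.inr hm⟩

theorem wval_congr (ι : G →* H) {f f' : κ → H} (w : List (Letter G κ))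
    (hw : ∀ k s, (Sum.inr (k, s) : Letter G κ) ∈ w → f k = f' k) :
    wval ι f w = wval ι f' w := by
  unfold wval
  congr 1
  refine List.map_congr_left fun a ha => ?_
  cases a with
  | inl g => rfl
  | inr l => simp [lval, sval, hw l.1 l.2 ha]

/-- A finite set of equations, each with a pivot absent from the rest and from all equations of
no larger rank, can be solved. -/
theorem solve_finite {G κ E L : Type*} [Group G] [LinearOrder L] (rank : E → L)
    (pre post : E → List (Letter G κ)) (piv : E → κ × Bool)
    (hoth : ∀ d e : E, rank d ≤ rank e → ∀ s,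
      (Sum.inr ((piv e).1, s) : Letter G κ) ∉ pre d ++ post d)
    (hpiv : ∀ d e : E, (piv d).1 = (piv e).1 → d = e) (F : Finset E) :
    ∃ f : κ → G, ∀ e ∈ F,
      wval (MonoidHom.id G) f (pre e) * sval f (piv e) * wval (MonoidHom.id G) f (post e) = 1 := by
  classical
  induction F using Finset.strongInduction with
  | _ F ih =>
    rcases F.eq_empty_or_nonempty with rfl | hne
    · exact ⟨fun _ => 1, by simp⟩
    obtain ⟨e, he, hmax⟩ := F.exists_max_image rank hne
    obtain ⟨f, hf⟩ := ih _ (Finset.erase_ssubset he)
    let v := (wval (MonoidHom.id G) f (pre e))⁻¹ * (wval (MonoidHom.id G) f (post e))⁻¹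
    let f' := Function.update f (piv e).1 (if (piv e).2 then v else v⁻¹)
    have hsame : ∀ d ∈ F, wval (MonoidHom.id G) f' (pre d) = wval (MonoidHom.id G) f (pre d) ∧
        wval (MonoidHom.id G) f' (post d) = wval (MonoidHom.id G) f (post d) := by
      intro d hd
      constructor <;>
      · refine wval_congr _ _ fun k s hk => Function.update_of_ne ?_ _ _
        rintro rfl
        exact hoth d e (hmax d hd) s (by simp [hk])
    refine ⟨f', fun d hd => ?_⟩
    rw [(hsame d hd).1, (hsame d hd).2]
    by_cases hde : d = e
    · subst hde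
      have hv : sval f' (piv d) = v := by
        simp only [sval, f', Function.update_self]
        split <;> simp
      rw [hv]; simp [v]
    · have hk : f' (piv d).1 = f (piv d).1 :=
        Function.update_of_ne (fun h => hde (hpiv d e h)) _ _
      simp only [sval, hk]
      exact hf d (Finset.mem_erase.2 ⟨hde, hd⟩)

/-- Right translation of functions on `Q`. -/
def act (Q U : Type u) [Group Q] [Group U] : Q →* MulAut (Q → U) where
  toFun q :=
    { toFun := fun f p => f (p * q)
      invFun := fun f p => f (p * q⁻¹)
      left_inv := fun f => by funext p; simp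
      right_inv := fun f => by funext p; simp
      map_mul' := fun _ _ => rfl }
  map_one' := by ext f p; simp
  map_mul' q r := by ext f p; simp [mul_assoc]

/-- Constant functions inside the semidirect product. -/
def diag {U : Type u} [Group U] (Q : Type u) [Group Q] (ι : G →* U) :
    G →* (Q → U) ⋊[act Q U] Q :=
  SemidirectProduct.inl.comp (MonoidHom.mk' (fun g _ => ι g) fun a b => by funext p; simp)

theorem wval_wreath {U : Type u} [Group U] (ι : G →* U) (q : Fin n → Q)
    (f : Fin n → Q → U) : ∀ (w : List (Letter G (Fin n))),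
    let z := wval (diag Q ι) (fun j => (⟨f j, q j⟩ : (Q → U) ⋊[act Q U] Q)) w
    z.right = wshift q w ∧ ∀ p, z.left p = wval ι (fun k => f k.1 k.2) (keys q p w) := by
  intro w
  set h : Fin n → (Q → U) ⋊[act Q U] Q := fun j => ⟨f j, q j⟩ with hdef
  have hl : ∀ j, (h j).left = f j := fun _ => rfl
  have hr : ∀ j, (h j).right = q j := fun _ => rfl
  have dl : ∀ g p, (diag Q ι g).left p = ι g := fun _ _ => rfl
  have dr : ∀ g, (diag Q ι g).right = 1 := fun _ => rfl
  have hact : ∀ (r p : Q) (F : Q → U), act Q U r F p = F (p * r) := fun _ _ _ => rfl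
  have hsymm : ∀ (r p : Q) (F : Q → U), (act Q U r).symm F p = F (p * r⁻¹) := fun _ _ _ => rfl
  clear_value h
  induction w with
  | nil => simp [wval, wshift, keys]
  | cons a w ih =>
    obtain ⟨ih1, ih2⟩ := ih
    simp only [wval] at ih1 ih2
    cases a with
    | inl g =>
      refine ⟨?_, fun p => ?_⟩
      · simp [wval, wshift, lval, shift, ih1, dr]
      · simp [wval, keys, lval, dl, dr, ih2]
    | inr l =>
      obtain ⟨j, b⟩ := l
      cases b <;> refine ⟨?_, fun p => ?_⟩
      · simp [wval, wshift, lval, shift, sval, ih1, hr]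
      · simp [wval, keys, lval, sval, pos, hsymm, ih2, hl, hr]
      · simp [wval, wshift, lval, shift, sval, ih1, hr]
      · simp [wval, keys, lval, sval, pos, hact, ih2, hl, hr]

/-- A system is solvable when an overgroup of `G` contains values of the unknowns satisfying it. -/
def Solv {m : ℕ} (w : Fin m → List (Letter G (Fin n))) : Prop :=
  ∃ (H : Type u) (_ : Group H) (ι : G →* H) (h : Fin n → H),
    Function.Injective ι ∧ ∀ i, wval ι h (w i) = 1

theorem solvable_of_pivots {m : ℕ} [LinearOrder Q]
    (hmul : ∀ a b c : Q, a ≤ b → c * a ≤ c * b) (q : Fin n → Q)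
    (pre post : Fin m → List (Letter G (Fin n))) (piv : Fin m → Fin n × Bool)
    (hinj : ∀ i l, (piv i).1 = (piv l).1 → i = l)
    (hone : ∀ l, wshift q (pre l ++ Sum.inr (piv l) :: post l) = 1)
    (hext : ∀ i l, ∀ R s, (Sum.inr (((piv i).1, R), s) : Letter G (Fin n × Q)) ∈
        keys q 1 (pre l) ++ keys q (wshift q (pre l) * sval q (piv l)) (post l) →
      R < pos q (wshift q (pre l)) (piv l) ∨
        (R = pos q (wshift q (pre l)) (piv l) ∧ i < l)) :
    Solv fun l => pre l ++ Sum.inr (piv l) :: post l := by
  classical
  let T : Fin m → Q := fun l => pos q (wshift q (pre l)) (piv l)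
  have hT : ∀ (p : Q) (l : Fin m), pos q (p * wshift q (pre l)) (piv l) = p * T l := by
    intro p l; simp only [T, pos]; split <;> simp [mul_assoc]
  let eq : Q × Fin m → List (Letter G (Fin n × Q)) := fun e =>
    keys q e.1 (pre e.2 ++ Sum.inr (piv e.2) :: post e.2)
  have heq : ∀ e, eq e = keys q e.1 (pre e.2) ++ Sum.inr (((piv e.2).1, e.1 * T e.2), (piv e.2).2)
      :: keys q (e.1 * (wshift q (pre e.2) * sval q (piv e.2))) (post e.2) := by
    intro e; simp [eq, keys_append, keys, hT, mul_assoc]
  have fin : ∀ F : Finset (Q × Fin m), ∃ f : Fin n × Q → G,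
      ∀ e ∈ F, wval (MonoidHom.id G) f (eq e) = 1 := by
    intro F
    suffices h : ∃ f : Fin n × Q → G, ∀ e ∈ F,
        wval (MonoidHom.id G) f (keys q e.1 (pre e.2)) *
          sval f (((piv e.2).1, e.1 * T e.2), (piv e.2).2) *
          wval (MonoidHom.id G) f
            (keys q (e.1 * (wshift q (pre e.2) * sval q (piv e.2))) (post e.2)) = 1 by
      obtain ⟨f, hf⟩ := h
      refine ⟨f, fun e he => ?_⟩
      rw [heq, ← hf e he]
      simp [wval, lval, mul_assoc]
    refine solve_finite (fun e : Q × Fin m => toLex (e.1 * T e.2, e.2))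
      (fun e => keys q e.1 (pre e.2))
      (fun e => keys q (e.1 * (wshift q (pre e.2) * sval q (piv e.2))) (post e.2))
      (fun e => (((piv e.2).1, e.1 * T e.2), (piv e.2).2)) ?_ ?_ F
    · rintro ⟨p, l⟩ ⟨r, i⟩ hle s hmem
      obtain ⟨R, hR, hm⟩ : ∃ R, r * T i = p * R ∧
          (Sum.inr (((piv i).1, R), s) : Letter G (Fin n × Q)) ∈
            keys q 1 (pre l) ++ keys q (wshift q (pre l) * sval q (piv l)) (post l) := by
        rcases List.mem_append.1 hmem with h | h
        · obtain ⟨R, hR, hm⟩ := keys_mul q p (pre l) 1 _ s (by simpa using h)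
          exact ⟨R, hR, List.mem_append.2 (Or.inl hm)⟩
        · obtain ⟨R, hR, hm⟩ := keys_mul q p (post l) _ _ s h
          exact ⟨R, hR, List.mem_append.2 (Or.inr hm)⟩
      rw [Prod.Lex.toLex_le_toLex] at hle
      simp only at hle hR
      rcases hext i l R s hm with h | ⟨h, hil⟩
      · have h' : p * R < p * T l :=
          lt_of_le_of_ne (hmul _ _ _ h.le) fun e => h.ne (mul_left_cancel e)
        rw [hR] at hle
        rcases hle with hle | ⟨hle, -⟩
        · exact absurd hle (not_lt.2 h'.le)
        · exact h'.ne hle.symm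
      · rw [hR, h] at hle
        rcases hle with hle | ⟨-, hle⟩
        · exact lt_irrefl _ hle
        · exact absurd hil (not_lt.2 hle)
    · rintro ⟨p, l⟩ ⟨r, i⟩ h
      simp only [Prod.mk.injEq] at h
      obtain rfl := hinj _ _ h.1
      exact Prod.ext (mul_right_cancel h.2) rfl
  choose f hf using fin
  let U : Ultrafilter (Finset (Q × Fin m)) := Ultrafilter.of atTop
  let C : G →* Germ (U : Filter (Finset (Q × Fin m))) G :=
    MonoidHom.mk' (fun g => Germ.const g) fun _ _ => rfl
  let φ : Fin n → Q → Germ (U : Filter (Finset (Q × Fin m))) G := fun j p =>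
    ↑(fun F => f F (j, p))
  have hgerm : ∀ w : List (Letter G (Fin n × Q)),
      wval C (fun k => φ k.1 k.2) w = ↑(fun F => wval (MonoidHom.id G) (f F) w) := by
    intro w
    induction w with
    | nil => rfl
    | cons a w ih =>
      simp only [wval, List.map_cons, List.prod_cons] at ih ⊢
      rw [ih]
      cases a with
      | inl g => rfl
      | inr l => rcases l with ⟨k, b⟩; cases b <;> rfl
  refine ⟨_, inferInstance, diag Q C, fun j => ⟨φ j, q j⟩, ?_, fun l => ?_⟩
  · intro a b hab
    have h := congrFun (SemidirectProduct.inl_injective hab) 1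
    exact Germ.const_inj.1 h
  · obtain ⟨h1, h2⟩ := wval_wreath C q φ (pre l ++ Sum.inr (piv l) :: post l)
    refine SemidirectProduct.ext ?_ ?_
    · funext p
      rw [h2 p, hgerm]
      refine Germ.coe_eq.2 ?_
      filter_upwards [Ultrafilter.of_le _ (eventually_ge_atTop {(p, l)})] with F hF
      exact hf F (p, l) (Finset.singleton_subset_iff.1 hF)
    · rw [h1, hone]; rfl

end Vale.Agent.P174
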